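import Mathlib

/-!
# Polynomials for the layer of width one eighth

`N = n - 2` and `s` is the place of the double zero. All parameters of the family are rational
functions of `(N, s)`; the definitions below are their numerators.
-/

namespace Vale.Agent.P100.Eighth

/-- Numerator of `M₂`, without its trivial factors. -/
noncomputable def eM (N s : ℝ) : ℝ :=
  8 * s ^ 5 - 8 * s ^ 7 - 16 * N * s ^ 4 + 12 * N * s ^ 5 - 12 * N * s ^ 6 - 4 * N * s ^ 7 + 10 *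
        N ^ 2 * s ^ 3 - 28 * N ^ 2 * s ^ 4 + 12 * N ^ 2 * s ^ 5 - 8 * N ^ 2 * s ^ 6 + 2 * N ^ 2 *
        s ^ 7 - 2 * N ^ 3 * s ^ 2 + 21 * N ^ 3 * s ^ 3 - 9 * N ^ 3 * s ^ 4 + 5 * N ^ 3 * s ^ 6 +
        N ^ 3 * s ^ 7 - 2 * N ^ 4 * s - 5 * N ^ 4 * s ^ 2 + N ^ 4 * s ^ 3 + 3 * N ^ 4 * s ^ 5 + 3 *
        N ^ 4 * s ^ 6 + 2 * N ^ 5 - N ^ 5 * s - 3 * N ^ 5 * s ^ 2 + 3 * N ^ 5 * s ^ 4 + 3 * N ^ 5 *
        s ^ 5 + N ^ 6 + 3 * N ^ 6 * s + 4 * N ^ 6 * s ^ 2 + 3 * N ^ 6 * s ^ 3 + N ^ 6 * s ^ 4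

/-- Numerator of the denominator of `Y`. -/
noncomputable def eDE (N s : ℝ) : ℝ :=
  -4 * s + 2 * s ^ 2 - N * s + N * s ^ 2 + N ^ 2 + N ^ 2 * s

/-- Numerator of `ν`. -/
noncomputable def eNu (N s : ℝ) : ℝ :=
  8 * s ^ 3 - 8 * s ^ 4 - 4 * s ^ 5 - 12 * N * s ^ 2 - 4 * N * s ^ 4 - 4 * N ^ 2 * s ^ 2 + N ^ 2 *
        s ^ 3 + 2 * N ^ 2 * s ^ 4 + N ^ 2 * s ^ 5 + 4 * N ^ 3 + 4 * N ^ 3 * s + 2 * N ^ 3 * s ^ 2 +
        4 * N ^ 3 * s ^ 3 + 2 * N ^ 3 * s ^ 4 + N ^ 4 * s + 2 * N ^ 4 * s ^ 2 + N ^ 4 * s ^ 3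

/-- Numerator of `G(ζ)`. -/
noncomputable def eG0 (N s : ℝ) : ℝ :=
  2 * s ^ 3 - 3 * N * s ^ 2 + N * s ^ 3 - 2 * N ^ 2 * s ^ 2 + N ^ 3 + N ^ 3 * s

/-- Numerator of `ζ`. -/
noncomputable def eZe (N s : ℝ) : ℝ :=
  (N * (s + 1) + 2 * s) * (N + s) - 4 * s * N

/-- Numerator of `1 + l`. -/
noncomputable def eOp (N s : ℝ) : ℝ :=
  N * (s + 1) + 2 * s

/-- Common factor. -/
noncomputable def eC (N s : ℝ) : ℝ :=
  (s + 1) * (s ^ 2 + s + 1) * N ^ 2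

/-- Numerator of `2ρ`. -/
noncomputable def eR (N s : ℝ) : ℝ :=
  eM N s * (s * eC N s - 2 * (3 * s + 1) * N + 2 / 3 * (s + 1) * (s ^ 2 + s + 1)) -
    s ^ 2 * N * eC N s * (N + s) * eDE N s ^ 2

/-- Numerator of `tν`. -/
noncomputable def eTV (N s : ℝ) : ℝ :=
  s ^ 2 * eDE N s * eNu N s

/-- Left side of (I) at `p = 0`. -/
noncomputable def eLI0 (N s : ℝ) : ℝ :=
  (N + 2) * eR N s * s - eOp N s * eC N s * eM N s

/-- Left side of (I). -/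
noncomputable def eLI (N s : ℝ) : ℝ :=
  (N + 1) * (s * (N + 4)) * (s + 1) * eC N s * eM N s + eLI0 N s

/-- Right side of (I). -/
noncomputable def eRI (N s : ℝ) : ℝ :=
  eTV N s * N * eC N s + eR N s * (s * (N + 4) * (s + 1) - 2 * s)

/-- Right side of (I) at `p = 0`. -/
noncomputable def eRI0 (N s : ℝ) : ℝ :=
  eTV N s * N * eC N s - eR N s * (2 * s)

/-- Condition (I). -/
noncomputable def eI (N s : ℝ) : ℝ :=
  (N + 2) * (N + 4) * eOp N s * eRI N s * eC N s * eM N s - eLI N s ^ 2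

/-- Condition (I) at `p = 0`. -/
noncomputable def eI0 (N s : ℝ) : ℝ :=
  (N + 2) * (N + 4) * eOp N s * eRI0 N s * eC N s * eM N s - eLI0 N s ^ 2

/-- Numerator of the upper end of `q`. -/
noncomputable def eQn (N s : ℝ) : ℝ :=
  16 * (s * (N + 4)) + 32 * N + N * (8 * N + 1)

/-- Denominator of the upper end of `q`. -/
noncomputable def eQd (N s : ℝ) : ℝ :=
  s * (N + 4) * (8 * N + 1) - 16 * N

/-- Left side of (II) at `q = 0`. -/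
noncomputable def eLII0 (N s : ℝ) : ℝ :=
  -(eTV N s * N * eC N s) - (N + 2) * eR N s * s

/-- Left side of (II). -/
noncomputable def eLII (N s : ℝ) : ℝ :=
  s ^ 3 * N * (N + s) * eDE N s ^ 2 * (N + 1) * eQn N s * (s + 1) * (N * eC N s) +
    eLII0 N s * eQd N s

/-- Right side of (II). -/
noncomputable def eRII (N s : ℝ) : ℝ :=
  eOp N s * eC N s * eM N s * eQd N s -
    eR N s * (eQn N s * N * (s + 1) - 2 * s * eQd N s)

/-- Right side of (II) at `q = 0`. -/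
noncomputable def eRII0 (N s : ℝ) : ℝ :=
  eOp N s * eC N s * eM N s + eR N s * (2 * s)

/-- Condition (II). -/
noncomputable def eII (N s : ℝ) : ℝ :=
  (N + 2) * (N + 4) * (s ^ 3 * N * eDE N s ^ 2) * eZe N s * eRII N s * eC N s * eQd N s -
    eLII N s ^ 2

/-- Condition (II) at `q = 0`. -/
noncomputable def eII0 (N s : ℝ) : ℝ :=
  (N + 2) * (N + 4) * (s ^ 3 * N * eDE N s ^ 2) * eZe N s * eRII0 N s * eC N s -
    eLII0 N s ^ 2

end Vale.Agent.P100.Eighth
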