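import Mathlib

/-!
# Bivariate polynomials as integer coefficient lists over a power of 72

A small computable copy of polynomial arithmetic, so that the sign of the coefficients of a
polynomial can be checked by kernel evaluation. A pair `(p, k)` stands for `p / 72 ^ k`: with
integer coefficients the evaluation stays cheap in time and memory.
-/

namespace Vale.Agent.P100.Eighth

/-- A coefficient list with the exponent of its denominator `72 ^ k`. -/
abbrev Poly2 := List (List ℤ) × ℕ

/-- Sum of two coefficient lists. -/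
def add1 : List ℤ → List ℤ → List ℤ
  | [], q => q
  | a :: p, [] => a :: p
  | a :: p, b :: q => (a + b) :: add1 p q

/-- Multiple of a coefficient list. -/
def smul1 (c : ℤ) : List ℤ → List ℤ
  | [] => []
  | a :: p => (c * a) :: smul1 c p

/-- Product of two coefficient lists. -/
def mul1 : List ℤ → List ℤ → List ℤ
  | [], _ => []
  | a :: p, q => add1 (smul1 a q) (0 :: mul1 p q)

/-- Value of a coefficient list at `x`. -/
noncomputable def ev1 : List ℤ → ℝ → ℝ
  | [], _ => 0
  | a :: p, x => a + x * ev1 p x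

theorem ev1_add (x : ℝ) : ∀ p q, ev1 (add1 p q) x = ev1 p x + ev1 q x
  | [], q => by simp [add1, ev1]
  | a :: p, [] => by simp [add1, ev1]
  | a :: p, b :: q => by simp only [add1, ev1, ev1_add x p q]; push_cast; ring

theorem ev1_smul (c : ℤ) (x : ℝ) : ∀ p, ev1 (smul1 c p) x = c * ev1 p x
  | [] => by simp [smul1, ev1]
  | a :: p => by simp only [smul1, ev1, ev1_smul c x p]; push_cast; ring

theorem ev1_mul (x : ℝ) : ∀ p q, ev1 (mul1 p q) x = ev1 p x * ev1 q x
  | [], q => by simp [mul1, ev1]
  | a :: p, q => by simp only [mul1, ev1, ev1_add, ev1_smul, ev1_mul x p q]; push_cast; ring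

/-- Sum of two bivariate coefficient lists. -/
def addL : List (List ℤ) → List (List ℤ) → List (List ℤ)
  | [], q => q
  | a :: p, [] => a :: p
  | a :: p, b :: q => add1 a b :: addL p q

/-- Multiple of a bivariate list by a list in the inner variable. -/
def smulL (c : List ℤ) : List (List ℤ) → List (List ℤ)
  | [] => []
  | a :: p => mul1 c a :: smulL c p

/-- Product of two bivariate coefficient lists. -/
def mulL : List (List ℤ) → List (List ℤ) → List (List ℤ)
  | [], _ => []
  | a :: p, q => addL (smulL a q) ([] :: mulL p q)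

/-- Value of a bivariate list at `(v, u)`. -/
noncomputable def evL : List (List ℤ) → ℝ → ℝ → ℝ
  | [], _, _ => 0
  | a :: p, v, u => ev1 a u + v * evL p v u

theorem evL_add (v u : ℝ) : ∀ p q, evL (addL p q) v u = evL p v u + evL q v u
  | [], q => by simp [addL, evL]
  | a :: p, [] => by simp [addL, evL]
  | a :: p, b :: q => by simp only [addL, evL, ev1_add, evL_add v u p q]; ring

theorem evL_smul (c : List ℤ) (v u : ℝ) : ∀ p, evL (smulL c p) v u = ev1 c u * evL p v u
  | [] => by simp [smulL, evL]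
  | a :: p => by simp only [smulL, evL, ev1_mul, evL_smul c v u p]; ring

theorem evL_mul (v u : ℝ) : ∀ p q, evL (mulL p q) v u = evL p v u * evL q v u
  | [], q => by simp [mulL, evL]
  | a :: p, q => by
    simp only [mulL, evL, evL_add, evL_smul, evL_mul v u p q, ev1]; ring

/-- Value at `(v, u)`. -/
noncomputable def ev2 (p : Poly2) (v u : ℝ) : ℝ := evL p.1 v u / (72 : ℝ) ^ p.2

/-- Sum. -/
def add2 (p q : Poly2) : Poly2 :=
  (addL (smulL [(72 : ℤ) ^ (max p.2 q.2 - p.2)] p.1)
    (smulL [(72 : ℤ) ^ (max p.2 q.2 - q.2)] q.1), max p.2 q.2)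

/-- Product. -/
def mul2 (p q : Poly2) : Poly2 := (mulL p.1 q.1, p.2 + q.2)

theorem ev2_add (v u : ℝ) (p q : Poly2) : ev2 (add2 p q) v u = ev2 p v u + ev2 q v u := by
  simp only [add2, ev2, evL_add, evL_smul, ev1, mul_zero, add_zero]
  push_cast
  rw [pow_sub₀ _ (by norm_num) (le_max_left _ _), pow_sub₀ _ (by norm_num) (le_max_right _ _)]
  field_simp

theorem ev2_mul (v u : ℝ) (p q : Poly2) : ev2 (mul2 p q) v u = ev2 p v u * ev2 q v u := by
  simp only [mul2, ev2, evL_mul, pow_add]
  rw [div_mul_div_comm]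

/-- Integer constant. -/
def const2 (c : ℤ) : Poly2 := ([[c]], 0)

theorem ev2_const (c : ℤ) (v u : ℝ) : ev2 (const2 c) v u = c := by
  simp [const2, ev2, evL, ev1]

/-- Difference. -/
def sub2 (p q : Poly2) : Poly2 := add2 p (mul2 (const2 (-1)) q)

theorem ev2_sub (v u : ℝ) (p q : Poly2) : ev2 (sub2 p q) v u = ev2 p v u - ev2 q v u := by
  simp only [sub2, ev2_add, ev2_mul, ev2_const]; push_cast; ring

/-- Power. -/
def pow2 (p : Poly2) : ℕ → Poly2
  | 0 => const2 1
  | k + 1 => mul2 (pow2 p k) p

theorem ev2_pow (v u : ℝ) (p : Poly2) : ∀ k, ev2 (pow2 p k) v u = ev2 p v u ^ k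
  | 0 => by simp [pow2, ev2_const]
  | k + 1 => by simp only [pow2, ev2_mul, ev2_pow v u p k, pow_succ]

/-- All coefficients are nonnegative. -/
def nonnegL (p : List (List ℤ)) : Bool := p.all fun r => r.all fun a => decide (0 ≤ a)

theorem ev1_nonneg {x : ℝ} (hx : 0 ≤ x) :
    ∀ {p : List ℤ}, (p.all fun a => decide (0 ≤ a)) = true → 0 ≤ ev1 p x
  | [], _ => le_refl _
  | a :: p, h => by
    simp only [List.all_cons, Bool.and_eq_true, decide_eq_true_eq] at h
    have h1 : (0 : ℝ) ≤ a := by exact_mod_cast h.1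
    exact add_nonneg h1 (mul_nonneg hx (ev1_nonneg hx h.2))

theorem evL_nonneg {v u : ℝ} (hv : 0 ≤ v) (hu : 0 ≤ u) :
    ∀ {p : List (List ℤ)}, nonnegL p = true → 0 ≤ evL p v u
  | [], _ => le_refl _
  | a :: p, h => by
    simp only [nonnegL, List.all_cons, Bool.and_eq_true] at h
    exact add_nonneg (ev1_nonneg hu h.1) (mul_nonneg hv (evL_nonneg hv hu h.2))

/-- All coefficients are nonnegative and the constant one is positive. -/
def pos2 : Poly2 → Bool
  | ((a :: r) :: p, _) => nonnegL ((a :: r) :: p) && decide (0 < a)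
  | _ => false

theorem ev2_pos {v u : ℝ} (hv : 0 ≤ v) (hu : 0 ≤ u) :
    ∀ {p : Poly2}, pos2 p = true → 0 < ev2 p v u
  | ([], _), h => by simp [pos2] at h
  | ([] :: p, _), h => by simp [pos2] at h
  | ((a :: r) :: p, k), h => by
    simp only [pos2, nonnegL, List.all_cons, Bool.and_eq_true, decide_eq_true_eq] at h
    have h1 : (0 : ℝ) < a := by exact_mod_cast h.2
    exact div_pos (add_pos_of_pos_of_nonneg
      (add_pos_of_pos_of_nonneg h1 (mul_nonneg hu (ev1_nonneg hu h.1.1.2)))
      (mul_nonneg hv (evL_nonneg hv hu h.1.2))) (by positivity)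

end Vale.Agent.P100.Eighth
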