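import Vale.Agent.P100.Eighth.Defs
import Vale.Agent.P100.Eighth.Poly

/-!
# The polynomials in the variables of the range

`N = (32 + u + v)/8`, `s = (20 + u)/9`, with `u, v ≥ 0`.
-/

set_option linter.unusedSimpArgs false

namespace Vale.Agent.P100.Eighth

/-- The list of `N`. -/
def pN : Poly2 := ([[288, 9], [9]], 1)

/-- The list of `s`. -/
def pS : Poly2 := ([[160, 8]], 1)

theorem ev_pN (v u : ℝ) : ev2 pN v u = (32 + u + v) / 8 := by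
  simp only [pN, ev2, evL, ev1]; push_cast; ring

theorem ev_pS (v u : ℝ) : ev2 pS v u = (20 + u) / 9 := by
  simp only [pS, ev2, evL, ev1]; push_cast; ring

/-- The constant `2/3`. -/
def twoThirds : Poly2 := ([[48]], 1)

theorem ev2_twoThirds (v u : ℝ) : ev2 twoThirds v u = 2 / 3 := by
  simp only [twoThirds, ev2, evL, ev1]; push_cast; ring

/-- The list of `eM`. -/
def pM : Poly2 :=
  add2 (add2 (add2 (add2 (add2 (add2 (add2 (sub2 (sub2 (add2 (add2 (add2 (add2 (sub2 (sub2 (add2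
    (add2 (sub2 (add2 (sub2 (add2 (sub2 (add2 (sub2 (add2 (sub2 (sub2 (add2 (sub2 (sub2 (mul2
    (const2 8) (pow2 pS 5)) (mul2 (const2 8) (pow2 pS 7))) (mul2 (mul2 (const2 16) pN) (pow2 pS
    4))) (mul2 (mul2 (const2 12) pN) (pow2 pS 5))) (mul2 (mul2 (const2 12) pN) (pow2 pS 6)))
    (mul2 (mul2 (const2 4) pN) (pow2 pS 7))) (mul2 (mul2 (const2 10) (pow2 pN 2)) (pow2 pS 3)))
    (mul2 (mul2 (const2 28) (pow2 pN 2)) (pow2 pS 4))) (mul2 (mul2 (const2 12) (pow2 pN 2))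
    (pow2 pS 5))) (mul2 (mul2 (const2 8) (pow2 pN 2)) (pow2 pS 6))) (mul2 (mul2 (const2 2) (pow2
    pN 2)) (pow2 pS 7))) (mul2 (mul2 (const2 2) (pow2 pN 3)) (pow2 pS 2))) (mul2 (mul2 (const2
    21) (pow2 pN 3)) (pow2 pS 3))) (mul2 (mul2 (const2 9) (pow2 pN 3)) (pow2 pS 4))) (mul2 (mul2
    (const2 5) (pow2 pN 3)) (pow2 pS 6))) (mul2 (pow2 pN 3) (pow2 pS 7))) (mul2 (mul2 (const2 2)
    (pow2 pN 4)) pS)) (mul2 (mul2 (const2 5) (pow2 pN 4)) (pow2 pS 2))) (mul2 (pow2 pN 4) (pow2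
    pS 3))) (mul2 (mul2 (const2 3) (pow2 pN 4)) (pow2 pS 5))) (mul2 (mul2 (const2 3) (pow2 pN
    4)) (pow2 pS 6))) (mul2 (const2 2) (pow2 pN 5))) (mul2 (pow2 pN 5) pS)) (mul2 (mul2 (const2
    3) (pow2 pN 5)) (pow2 pS 2))) (mul2 (mul2 (const2 3) (pow2 pN 5)) (pow2 pS 4))) (mul2 (mul2
    (const2 3) (pow2 pN 5)) (pow2 pS 5))) (pow2 pN 6)) (mul2 (mul2 (const2 3) (pow2 pN 6)) pS))
    (mul2 (mul2 (const2 4) (pow2 pN 6)) (pow2 pS 2))) (mul2 (mul2 (const2 3) (pow2 pN 6)) (pow2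
    pS 3))) (mul2 (pow2 pN 6) (pow2 pS 4))

theorem ev_pM (v u : ℝ) :
    ev2 pM v u = eM ((32 + u + v) / 8) ((20 + u) / 9) := by
  simp only [pM, ev2_add, ev2_sub, ev2_mul, ev2_pow, ev2_const, ev_pN, ev_pS, eM]  <;> push_cast <;> ring

/-- The list of `eDE`. -/
def pDE : Poly2 :=
  add2 (add2 (add2 (sub2 (add2 (mul2 (mul2 (const2 (-1)) (const2 4)) pS) (mul2 (const2 2) (pow2
    pS 2))) (mul2 pN pS)) (mul2 pN (pow2 pS 2))) (pow2 pN 2)) (mul2 (pow2 pN 2) pS)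

theorem ev_pDE (v u : ℝ) :
    ev2 pDE v u = eDE ((32 + u + v) / 8) ((20 + u) / 9) := by
  simp only [pDE, ev2_add, ev2_sub, ev2_mul, ev2_pow, ev2_const, ev_pN, ev_pS, eDE]  <;> push_cast <;> ring

/-- The list of `eNu`. -/
def pNu : Poly2 :=
  add2 (add2 (add2 (add2 (add2 (add2 (add2 (add2 (add2 (add2 (add2 (sub2 (sub2 (sub2 (sub2 (sub2
    (mul2 (const2 8) (pow2 pS 3)) (mul2 (const2 8) (pow2 pS 4))) (mul2 (const2 4) (pow2 pS 5)))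
    (mul2 (mul2 (const2 12) pN) (pow2 pS 2))) (mul2 (mul2 (const2 4) pN) (pow2 pS 4))) (mul2
    (mul2 (const2 4) (pow2 pN 2)) (pow2 pS 2))) (mul2 (pow2 pN 2) (pow2 pS 3))) (mul2 (mul2
    (const2 2) (pow2 pN 2)) (pow2 pS 4))) (mul2 (pow2 pN 2) (pow2 pS 5))) (mul2 (const2 4) (pow2
    pN 3))) (mul2 (mul2 (const2 4) (pow2 pN 3)) pS)) (mul2 (mul2 (const2 2) (pow2 pN 3)) (pow2
    pS 2))) (mul2 (mul2 (const2 4) (pow2 pN 3)) (pow2 pS 3))) (mul2 (mul2 (const2 2) (pow2 pN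
    3)) (pow2 pS 4))) (mul2 (pow2 pN 4) pS)) (mul2 (mul2 (const2 2) (pow2 pN 4)) (pow2 pS 2)))
    (mul2 (pow2 pN 4) (pow2 pS 3))

theorem ev_pNu (v u : ℝ) :
    ev2 pNu v u = eNu ((32 + u + v) / 8) ((20 + u) / 9) := by
  simp only [pNu, ev2_add, ev2_sub, ev2_mul, ev2_pow, ev2_const, ev_pN, ev_pS, eNu]  <;> push_cast <;> ring

/-- The list of `eG0`. -/
def pG0 : Poly2 :=
  add2 (add2 (sub2 (add2 (sub2 (mul2 (const2 2) (pow2 pS 3)) (mul2 (mul2 (const2 3) pN) (pow2 pS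
    2))) (mul2 pN (pow2 pS 3))) (mul2 (mul2 (const2 2) (pow2 pN 2)) (pow2 pS 2))) (pow2 pN 3))
    (mul2 (pow2 pN 3) pS)

theorem ev_pG0 (v u : ℝ) :
    ev2 pG0 v u = eG0 ((32 + u + v) / 8) ((20 + u) / 9) := by
  simp only [pG0, ev2_add, ev2_sub, ev2_mul, ev2_pow, ev2_const, ev_pN, ev_pS, eG0]  <;> push_cast <;> ring

/-- The list of `eZe`. -/
def pZe : Poly2 :=
  sub2 (mul2 (add2 (mul2 pN (add2 pS (const2 1))) (mul2 (const2 2) pS)) (add2 pN pS)) (mul2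
    (mul2 (const2 4) pS) pN)

theorem ev_pZe (v u : ℝ) :
    ev2 pZe v u = eZe ((32 + u + v) / 8) ((20 + u) / 9) := by
  simp only [pZe, ev2_add, ev2_sub, ev2_mul, ev2_pow, ev2_const, ev_pN, ev_pS, eZe]  <;> push_cast <;> ring

/-- The list of `eOp`. -/
def pOp : Poly2 :=
  add2 (mul2 pN (add2 pS (const2 1))) (mul2 (const2 2) pS)

theorem ev_pOp (v u : ℝ) :
    ev2 pOp v u = eOp ((32 + u + v) / 8) ((20 + u) / 9) := by
  simp only [pOp, ev2_add, ev2_sub, ev2_mul, ev2_pow, ev2_const, ev_pN, ev_pS, eOp]  <;> push_cast <;> ring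

/-- The list of `eC`. -/
def pC : Poly2 :=
  mul2 (mul2 (add2 pS (const2 1)) (add2 (add2 (pow2 pS 2) pS) (const2 1))) (pow2 pN 2)

theorem ev_pC (v u : ℝ) :
    ev2 pC v u = eC ((32 + u + v) / 8) ((20 + u) / 9) := by
  simp only [pC, ev2_add, ev2_sub, ev2_mul, ev2_pow, ev2_const, ev_pN, ev_pS, eC]  <;> push_cast <;> ring

/-- The list of `eR`. -/
def pR : Poly2 :=
  sub2 (mul2 pM (add2 (sub2 (mul2 pS pC) (mul2 (mul2 (const2 2) (add2 (mul2 (const2 3) pS)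
    (const2 1))) pN)) (mul2 (mul2 twoThirds (add2 pS (const2 1))) (add2 (add2 (pow2 pS 2)
    pS) (const2 1))))) (mul2 (mul2 (mul2 (mul2 (pow2 pS 2) pN) pC) (add2 pN pS)) (pow2 pDE 2))

theorem ev_pR (v u : ℝ) :
    ev2 pR v u = eR ((32 + u + v) / 8) ((20 + u) / 9) := by
  simp only [pR, ev2_twoThirds, ev2_add, ev2_sub, ev2_mul, ev2_pow, ev2_const, ev_pN, ev_pS, ev_pM, ev_pDE, ev_pC, eR]  <;> push_cast <;> ring

/-- The list of `eTV`. -/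
def pTV : Poly2 :=
  mul2 (mul2 (pow2 pS 2) pDE) pNu

theorem ev_pTV (v u : ℝ) :
    ev2 pTV v u = eTV ((32 + u + v) / 8) ((20 + u) / 9) := by
  simp only [pTV, ev2_add, ev2_sub, ev2_mul, ev2_pow, ev2_const, ev_pN, ev_pS, ev_pDE, ev_pNu, eTV]  <;> push_cast <;> ring

/-- The list of `eLI0`. -/
def pLI0 : Poly2 :=
  sub2 (mul2 (mul2 (add2 pN (const2 2)) pR) pS) (mul2 (mul2 pOp pC) pM)

theorem ev_pLI0 (v u : ℝ) :
    ev2 pLI0 v u = eLI0 ((32 + u + v) / 8) ((20 + u) / 9) := by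
  simp only [pLI0, ev2_add, ev2_sub, ev2_mul, ev2_pow, ev2_const, ev_pN, ev_pS, ev_pM, ev_pOp, ev_pC, ev_pR, eLI0]  <;> push_cast <;> ring

/-- The list of `eLI`. -/
def pLI : Poly2 :=
  add2 (mul2 (mul2 (mul2 (mul2 (add2 pN (const2 1)) (mul2 pS (add2 pN (const2 4)))) (add2 pS
    (const2 1))) pC) pM) pLI0

theorem ev_pLI (v u : ℝ) :
    ev2 pLI v u = eLI ((32 + u + v) / 8) ((20 + u) / 9) := by
  simp only [pLI, ev2_add, ev2_sub, ev2_mul, ev2_pow, ev2_const, ev_pN, ev_pS, ev_pM, ev_pC, ev_pLI0, eLI]  <;> push_cast <;> ring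

/-- The list of `eRI`. -/
def pRI : Poly2 :=
  add2 (mul2 (mul2 pTV pN) pC) (mul2 pR (sub2 (mul2 (mul2 pS (add2 pN (const2 4))) (add2 pS
    (const2 1))) (mul2 (const2 2) pS)))

theorem ev_pRI (v u : ℝ) :
    ev2 pRI v u = eRI ((32 + u + v) / 8) ((20 + u) / 9) := by
  simp only [pRI, ev2_add, ev2_sub, ev2_mul, ev2_pow, ev2_const, ev_pN, ev_pS, ev_pC, ev_pR, ev_pTV, eRI]  <;> push_cast <;> ring

/-- The list of `eRI0`. -/
def pRI0 : Poly2 :=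
  sub2 (mul2 (mul2 pTV pN) pC) (mul2 pR (mul2 (const2 2) pS))

theorem ev_pRI0 (v u : ℝ) :
    ev2 pRI0 v u = eRI0 ((32 + u + v) / 8) ((20 + u) / 9) := by
  simp only [pRI0, ev2_add, ev2_sub, ev2_mul, ev2_pow, ev2_const, ev_pN, ev_pS, ev_pC, ev_pR, ev_pTV, eRI0]  <;> push_cast <;> ring

/-- The list of `eI`. -/
def pI : Poly2 :=
  sub2 (mul2 (mul2 (mul2 (mul2 (mul2 (add2 pN (const2 2)) (add2 pN (const2 4))) pOp) pRI) pC)
    pM) (pow2 pLI 2)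

theorem ev_pI (v u : ℝ) :
    ev2 pI v u = eI ((32 + u + v) / 8) ((20 + u) / 9) := by
  simp only [pI, ev2_add, ev2_sub, ev2_mul, ev2_pow, ev2_const, ev_pN, ev_pS, ev_pM, ev_pOp, ev_pC, ev_pLI, ev_pRI, eI]  <;> push_cast <;> ring

/-- The list of `eI0`. -/
def pI0 : Poly2 :=
  sub2 (mul2 (mul2 (mul2 (mul2 (mul2 (add2 pN (const2 2)) (add2 pN (const2 4))) pOp) pRI0) pC)
    pM) (pow2 pLI0 2)

theorem ev_pI0 (v u : ℝ) :
    ev2 pI0 v u = eI0 ((32 + u + v) / 8) ((20 + u) / 9) := by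
  simp only [pI0, ev2_add, ev2_sub, ev2_mul, ev2_pow, ev2_const, ev_pN, ev_pS, ev_pM, ev_pOp, ev_pC, ev_pLI0, ev_pRI0, eI0]  <;> push_cast <;> ring

/-- The list of `eQn`. -/
def pQn : Poly2 :=
  add2 (add2 (mul2 (const2 16) (mul2 pS (add2 pN (const2 4)))) (mul2 (const2 32) pN)) (mul2 pN
    (add2 (mul2 (const2 8) pN) (const2 1)))

theorem ev_pQn (v u : ℝ) :
    ev2 pQn v u = eQn ((32 + u + v) / 8) ((20 + u) / 9) := by
  simp only [pQn, ev2_add, ev2_sub, ev2_mul, ev2_pow, ev2_const, ev_pN, ev_pS, eQn]  <;> push_cast <;> ring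

/-- The list of `eQd`. -/
def pQd : Poly2 :=
  sub2 (mul2 (mul2 pS (add2 pN (const2 4))) (add2 (mul2 (const2 8) pN) (const2 1))) (mul2
    (const2 16) pN)

theorem ev_pQd (v u : ℝ) :
    ev2 pQd v u = eQd ((32 + u + v) / 8) ((20 + u) / 9) := by
  simp only [pQd, ev2_add, ev2_sub, ev2_mul, ev2_pow, ev2_const, ev_pN, ev_pS, eQd]  <;> push_cast <;> ring

/-- The list of `eLII0`. -/
def pLII0 : Poly2 :=
  sub2 (mul2 (const2 (-1)) (mul2 (mul2 pTV pN) pC)) (mul2 (mul2 (add2 pN (const2 2)) pR) pS)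

theorem ev_pLII0 (v u : ℝ) :
    ev2 pLII0 v u = eLII0 ((32 + u + v) / 8) ((20 + u) / 9) := by
  simp only [pLII0, ev2_add, ev2_sub, ev2_mul, ev2_pow, ev2_const, ev_pN, ev_pS, ev_pC, ev_pR, ev_pTV, eLII0]  <;> push_cast <;> ring

/-- The list of `eLII`. -/
def pLII : Poly2 :=
  add2 (mul2 (mul2 (mul2 (mul2 (mul2 (mul2 (mul2 (pow2 pS 3) pN) (add2 pN pS)) (pow2 pDE 2))
    (add2 pN (const2 1))) pQn) (add2 pS (const2 1))) (mul2 pN pC)) (mul2 pLII0 pQd)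

theorem ev_pLII (v u : ℝ) :
    ev2 pLII v u = eLII ((32 + u + v) / 8) ((20 + u) / 9) := by
  simp only [pLII, ev2_add, ev2_sub, ev2_mul, ev2_pow, ev2_const, ev_pN, ev_pS, ev_pDE, ev_pC, ev_pQn, ev_pQd, ev_pLII0, eLII]  <;> push_cast <;> ring

/-- The list of `eRII`. -/
def pRII : Poly2 :=
  sub2 (mul2 (mul2 (mul2 pOp pC) pM) pQd) (mul2 pR (sub2 (mul2 (mul2 pQn pN) (add2 pS (const2
    1))) (mul2 (mul2 (const2 2) pS) pQd)))

theorem ev_pRII (v u : ℝ) :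
    ev2 pRII v u = eRII ((32 + u + v) / 8) ((20 + u) / 9) := by
  simp only [pRII, ev2_add, ev2_sub, ev2_mul, ev2_pow, ev2_const, ev_pN, ev_pS, ev_pM, ev_pOp, ev_pC, ev_pR, ev_pQn, ev_pQd, eRII]  <;> push_cast <;> ring

/-- The list of `eRII0`. -/
def pRII0 : Poly2 :=
  add2 (mul2 (mul2 pOp pC) pM) (mul2 pR (mul2 (const2 2) pS))

theorem ev_pRII0 (v u : ℝ) :
    ev2 pRII0 v u = eRII0 ((32 + u + v) / 8) ((20 + u) / 9) := by
  simp only [pRII0, ev2_add, ev2_sub, ev2_mul, ev2_pow, ev2_const, ev_pN, ev_pS, ev_pM, ev_pOp, ev_pC, ev_pR, eRII0]  <;> push_cast <;> ring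

/-- The list of `eII`. -/
def pII : Poly2 :=
  sub2 (mul2 (mul2 (mul2 (mul2 (mul2 (mul2 (add2 pN (const2 2)) (add2 pN (const2 4))) (mul2
    (mul2 (pow2 pS 3) pN) (pow2 pDE 2))) pZe) pRII) pC) pQd) (pow2 pLII 2)

theorem ev_pII (v u : ℝ) :
    ev2 pII v u = eII ((32 + u + v) / 8) ((20 + u) / 9) := by
  simp only [pII, ev2_add, ev2_sub, ev2_mul, ev2_pow, ev2_const, ev_pN, ev_pS, ev_pDE, ev_pZe, ev_pC, ev_pQd, ev_pLII, ev_pRII, eII]  <;> push_cast <;> ring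

/-- The list of `eII0`. -/
def pII0 : Poly2 :=
  sub2 (mul2 (mul2 (mul2 (mul2 (mul2 (add2 pN (const2 2)) (add2 pN (const2 4))) (mul2 (mul2
    (pow2 pS 3) pN) (pow2 pDE 2))) pZe) pRII0) pC) (pow2 pLII0 2)

theorem ev_pII0 (v u : ℝ) :
    ev2 pII0 v u = eII0 ((32 + u + v) / 8) ((20 + u) / 9) := by
  simp only [pII0, ev2_add, ev2_sub, ev2_mul, ev2_pow, ev2_const, ev_pN, ev_pS, ev_pDE, ev_pZe, ev_pC, ev_pLII0, ev_pRII0, eII0]  <;> push_cast <;> ring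

end Vale.Agent.P100.Eighth
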