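import Vale.Agent.P100.Eighth.Lists

/-!
# Positivity of `pII0`, checked by kernel evaluation
-/

namespace Vale.Agent.P100.Eighth

theorem pII0_pos2 : pos2 pII0 = true := by decide +kernel

end Vale.Agent.P100.Eighth
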