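import Vale.Agent.P100.Eighth.PosI
import Vale.Agent.P100.Eighth.PosI0
import Vale.Agent.P100.Eighth.PosII
import Vale.Agent.P100.Eighth.PosII0

/-!
# All conditions are positive on the range
-/

namespace Vale.Agent.P100.Eighth

variable {v u : ℝ}

theorem pM_pos2 : pos2 pM = true := by decide +kernel

theorem eM_pos (hv : 0 ≤ v) (hu : 0 ≤ u) :
    0 < eM ((32 + u + v) / 8) ((20 + u) / 9) :=
  ev_pM v u ▸ ev2_pos hv hu pM_pos2

theorem pDE_pos2 : pos2 pDE = true := by decide +kernel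

theorem eDE_pos (hv : 0 ≤ v) (hu : 0 ≤ u) :
    0 < eDE ((32 + u + v) / 8) ((20 + u) / 9) :=
  ev_pDE v u ▸ ev2_pos hv hu pDE_pos2

theorem pG0_pos2 : pos2 pG0 = true := by decide +kernel

theorem eG0_pos (hv : 0 ≤ v) (hu : 0 ≤ u) :
    0 < eG0 ((32 + u + v) / 8) ((20 + u) / 9) :=
  ev_pG0 v u ▸ ev2_pos hv hu pG0_pos2

theorem pZe_pos2 : pos2 pZe = true := by decide +kernel

theorem eZe_pos (hv : 0 ≤ v) (hu : 0 ≤ u) :
    0 < eZe ((32 + u + v) / 8) ((20 + u) / 9) :=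
  ev_pZe v u ▸ ev2_pos hv hu pZe_pos2

theorem eI_pos (hv : 0 ≤ v) (hu : 0 ≤ u) :
    0 < eI ((32 + u + v) / 8) ((20 + u) / 9) :=
  ev_pI v u ▸ ev2_pos hv hu pI_pos2

theorem eI0_pos (hv : 0 ≤ v) (hu : 0 ≤ u) :
    0 < eI0 ((32 + u + v) / 8) ((20 + u) / 9) :=
  ev_pI0 v u ▸ ev2_pos hv hu pI0_pos2

theorem eII_pos (hv : 0 ≤ v) (hu : 0 ≤ u) :
    0 < eII ((32 + u + v) / 8) ((20 + u) / 9) :=
  ev_pII v u ▸ ev2_pos hv hu pII_pos2

theorem eII0_pos (hv : 0 ≤ v) (hu : 0 ≤ u) :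
    0 < eII0 ((32 + u + v) / 8) ((20 + u) / 9) :=
  ev_pII0 v u ▸ ev2_pos hv hu pII0_pos2

end Vale.Agent.P100.Eighth
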